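import Vale.Agent.P211.Cert.Pair.Data.HessInnerA.Base

/-!
P211, data: the root `innerA` of the Hessian weight, generated from the exact search.
-/

namespace Vale.Agent.P211.Cert.Pair.HessInnerA

open Vale.Agent.P098.Check6 (Face St ofChunks reach)
open Vale.Agent.P098.Cert6.Kron (RootPar)

/-- A subtree. -/
def tree0 : Check.Tree (Option ℕ) :=
  .node 1
    (.leaf none)
    (.node 1
    (.node 2
    (.node 2
    (.leaf (some 1))
    (.leaf none))
    (.leaf none))
    (.node 2
    (.leaf (some 1))
    (.node 0
    (.leaf none)
    (.node 2
    (.node 1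
    (.leaf none)
    (.leaf (some 1)))
    (.leaf none)))))

theorem chunk0 : Check.GoodSign cfg (reach cfg base []) :=
  Check.checkSign_sound tree0 (by decide +kernel)

end Vale.Agent.P211.Cert.Pair.HessInnerA
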